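import Vale.Agent.P141.H408.SkelTI3
import Vale.Agent.P141.H482.LCap

/-!
# P141, line (A), (TI): the caps of the increasing part in the gauge

* `caps_gauge` : the caps of the definite families in the gauge of `H228.GaugeI`;
* `lCapG : H408.LCapG`.
-/

namespace Vale.Agent.P141.H59

open Finset Matrix
open Vale.Agent.P075 (Ix val)
open Vale.Agent.P141.PL (Pt iv ix cx mem_iv ix_ix)
open Vale.Agent.P141.PL.H315 (Tri)
open Vale.Agent.P141.H48 (US ES BSl)
open Vale.Agent.P141.H103 (QW)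
open Vale.Agent.P141.H215 (capV)
open Vale.Agent.P141.H305 (Cls ClsM kapM)
open Vale.Agent.P141.H401
open Vale.Agent.P141.H408 (Caps)
open Vale.Agent.P141.H482.LCap
open Vale.Agent.P141.H228.Gauge (CapsG)

noncomputable section

open scoped Classical

variable {ι : Type} [Fintype ι] [DecidableEq ι]

/-- **The caps of the definite families in the gauge.** -/
theorem caps_gauge {p : H401.Num} {n K : ℕ} {ez s r P cP be c τ cC' : ℝ}
    {F1 F2 F3 : ℕ → Pt → ℝ} {Q1 Q2 Q3 : ℕ → Pt → Prop} {o : ℤ} {x : Pt} {U : Tri}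
    {g : ℤ → ℤ → ℝ} {u v : ℤ → ℤ → ι → ℝ} (ht : 0 < p.t) (hs : 0 < s) (hr : 1 ≤ r)
    (hez : 0 < ez) (hK : K ≤ n) (hcls : Cls K x s r P U g u v) (q2 : BSl n ez cP F2 Q2)
    (hbe : 0 < be) (hbe1 : be ≤ 1) (hA : 2 * p.th s r ^ 2 ≤ τ ^ 2)
    (hC : c ^ 2 * (3 * capV p.Lm s ez) ≤ cC' ^ 2) :
    CapsG (p.al U K) o K (cx K x) be (p.lam s r) u (cA p s r U K g F1 Q1)
      (cb p s r U K u F3 Q3) (fun x0 k z w => c • mC p U K v F2 x0 k z w) τ cC' := by
  have h := caps_all (p := p) (Q1 := Q1) (Q3 := Q3) (F1 := F1) (F3 := F3) (o := o)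
    (be := be) (c := c) (cA' := τ) (cB' := τ) (cC' := cC') ht hs hr hez hK hcls q2 hbe hbe1
    (by nlinarith [sq_nonneg (p.th s r)]) hA hC
  refine ⟨h.capA, fun x0 k hk m _ => ?_, h.capC⟩
  have h1 := psd_capS (capB_c p s r U K u F3 Q3 x0 k m.2.2 m.2.1)
  have h2 := h1.smul (by norm_num : (0 : ℝ) ≤ 2)
  rw [smul_sub, smul_smul] at h2
  exact psd_up hA h2

/-- **LEAF: the caps of the increasing part in the gauge.** -/
theorem lCapG : H408.LCapG := by
  refine H408.PairQ.toU ?_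
  intro a _ _
  refine ⟨1, one_pos, fun e0 he0 _ => ⟨1, one_pos, fun k8 _ _ => ⟨1, one_pos, fun k3 _ _ => ?_⟩⟩⟩
  intro δ _
  refine ⟨1, 1, one_pos, one_pos, fun c _ _ d hd hd1 Kt e cP L _ _ _ _ => ⟨1, zero_le_one, ?_⟩⟩
  intro t ht ht1 n ez F1 F2 F3 _ _ _ o _ K hK x ι _ _ s r U g' u v hs hr hcls Q1 Q2 Q3 _ q2 _ hez
  set p : H401.Num := ⟨a, e0, k8, k3, c, d, Kt, e, cP, L, 1, t⟩ with hp
  have hth : (0 : ℝ) < p.th s r := H401.Num.th_pos ht hs hr
  have hy : 0 < p.t / r := div_pos ht (by linarith)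
  have hy1 : p.t / r ≤ 1 := (div_le_self ht.le hr).trans ht1
  exact caps_gauge (p := p) (Q1 := Q1) (Q3 := Q3) (F1 := F1) (F3 := F3) (o := o)
    (be := H408.beI p r) (c := (√ez)⁻¹) (τ := H408.tauI p s r)
    (cC' := H408.cCI p s r) ht hs hr hez hK hcls.toCls q2
    (Real.rpow_pos_of_pos hy _) (Real.rpow_le_one hy.le hy1 (by
      show 0 ≤ e0 / 2
      linarith)) (by unfold H408.tauI; nlinarith)
    (capC_num' (p := p) ht ht1 hd1 hs hr hez)

end

end Vale.Agent.P141.H59
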